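import Crest.Agent.N255.Gs.Sing
import Crest.Agent.N255.Gs.Cell
import Crest.Agent.N255.Tp.Van_Mg
import Crest.Agent.N255.Tp.All

-- ▼ part N255/Gs/Kill
section

/-!
# Row 255, block D (helper89): transfer of compactly supported cohomology and of homology between
the cells and the manifold, with control of the supports
-/

set_option autoImplicit false
open Set Filter Topology
open scoped Pointwise

noncomputable section

namespace Crest.Agent.N255.Gs

open Crest.Agent.N255.Tp Crest.Agent.N255.Uc Crest.Agent.N255.Gc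

variable {G T : Type} [Group G] [TopologicalSpace T] [MulAction G T] [ContinuousConstSMul G T]
  {d : ℕ} {K₀ : Set T} {X : ℕ → Type} [∀ n, MulAction G (X n)] {k : Type} [Field k]

omit [TopologicalSpace T] [ContinuousConstSMul G T] in
theorem sat_sub_compl {V : Set G} {K : Set T} (h : ∀ g ∈ V, g ∉ shs G K₀ K) : sat V K₀ ⊆ Kᶜ :=
  fun x ⟨g, hg, hx⟩ hK => h g hg ⟨x, hK, hx⟩

omit [TopologicalSpace T] [ContinuousConstSMul G T] in
theorem shs_sat (U : Set G) (L : Set T) : shs G K₀ (sat U L) ⊆ U * shs G K₀ L := by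
  rintro a ⟨x, ⟨g, hg, hx⟩, ha⟩
  exact ⟨g, hg, g⁻¹ * a, ⟨_, hx, by simpa [smul_smul] using ha⟩, mul_inv_cancel_left g a⟩

omit [TopologicalSpace T] [ContinuousConstSMul G T] in
theorem shs_compl_sat (U : Set G) {a : G} (ha : a ∈ shs G K₀ (sat U K₀)ᶜ) : a ∉ U :=
  fun hU => let ⟨_, hx, h⟩ := ha; hx ⟨a, hU, h⟩

/-- subdivision into small simplices -/
def rh (G : Type) {T : Type} [Group G] [TopologicalSpace T] [MulAction G T] (K₀ : Set T) (k : Type)
    [CommRing k] (n : ℕ) : Ch k n T →ₗ[k] Ch k n T := Sml.rho k (FD.cvr G K₀) n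

/-- its homotopy to the identity -/
def dh (G : Type) {T : Type} [Group G] [TopologicalSpace T] [MulAction G T] (K₀ : Set T) (k : Type)
    [CommRing k] (n : ℕ) : Ch k n T →ₗ[k] Ch k (n + 1) T := Sml.DD k (FD.cvr G K₀) n

/-- cells to simplices: control over arbitrary sets of labels -/
theorem FD.cell_sing (h : FD d G K₀) (L : Lab G X) {n m : ℕ} {F : (X n →₀ k) →ₗ[k] Ch k m T}
    (he : Eqv G F) (hc : Ctl (L.P n) (h.shS m) F) : ∃ S : Set G, S.Finite ∧
      ∀ U : Set G, ∀ c ∈ (L.P n).W k U, F c ∈ (h.shS m).W k (U * S) := by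
  obtain ⟨S, hS, h1, -⟩ := hc.unif he (finite_singleton 1)
  refine ⟨S, hS, fun U c hc => map_mem_of (fun a ha => ?_) hc⟩
  refine (h.shS m).W_mono ?_ (h1 (L.l n a) _ ((L.P n).single_mem ?_ 1))
  · rintro _ ⟨s, hs, rfl⟩
    exact ⟨_, ha (mem_singleton _), s, hs, rfl⟩
  · rw [smul_set_singleton, smul_eq_mul, mul_one]; exact Subset.rfl

/-- simplices to anything, after subdivision -/
theorem FD.sing_any (h : FD d G K₀) {B : Type} [MulAction G B] {Q : Sh G B} {n : ℕ}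
    {F : Ch k n T →ₗ[k] (B →₀ k)} (he : Eqv G F) (hc : Ctl (h.shS n) Q F) :
    ∃ S : Set G, S.Finite ∧ ∀ A : Set T, ∀ c ∈ (On A).ch k n,
      F (rh G K₀ k n c) ∈ Q.W k (shs G K₀ A * S) := by
  obtain ⟨S, hS, -, h1⟩ := hc.unif he h.nb_finite
  exact ⟨S, hS, fun A c hc => (h1 _ _ (h.small_le_Ws k A
    (Sml.rho_inf k FD.cvr_open (h.cvr_cover A) hc))).1⟩

theorem FD.ev_zero (h : FD d G K₀) {n : ℕ} {V : Set G} {K : Set T} {φ : Co k n T}
    (hφ : φ ∈ (On Kᶜ).van k k n) {c : Ch k n T} (hc : c ∈ (h.shS n).W k V)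
    (hV : ∀ g ∈ V, g ∉ shs G K₀ K) : ev k φ c = 0 :=
  Sb.ev_eq_zero hφ (ch_mono (sat_sub_compl hV) (h.W_le_On k V hc))

open Classical in
/-- a function with finite support as a finitely supported function -/
def toF {A : Type} (u : A → k) : A →₀ k :=
  if h : (Function.support u).Finite then Finsupp.ofSupportFinite u h else 0

theorem toF_apply {A : Type} {u : A → k} (h : (Function.support u).Finite) (a : A) :
    toF u a = u a := by rw [toF, dif_pos h]; rfl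

theorem pr_toF {A : Type} {u : (A →₀ k) →ₗ[k] k}
    (h : (Function.support fun a => u (Finsupp.single a 1)).Finite) (c : A →₀ k) :
    pr k (toF fun a => u (Finsupp.single a 1)) c = u c := by
  have : pr k (toF fun a => u (Finsupp.single a 1)) = u :=
    Finsupp.lhom_ext' fun a => LinearMap.ext_ring (by
      simp only [LinearMap.comp_apply, Finsupp.lsingle_apply]
      rw [pr_single, toF_apply h, one_mul])
  rw [this]

theorem pr_add {A : Type} (a b c : A →₀ k) : pr k (a + b) c = pr k a c + pr k b c := by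
  rw [pr_comm, map_add, pr_comm a, pr_comm b]

theorem pr_smul {A : Type} (r : k) (a c : A →₀ k) : pr k (r • a) c = r • pr k a c := by
  rw [pr_comm, map_smul, pr_comm a]

theorem pr_W (L : Lab G X) {n : ℕ} {U V : Set G} {a c : X n →₀ k} (ha : a ∈ (L.P n).W k U)
    (hc : c ∈ (L.P n).W k V) (hUV : ∀ g ∈ V, g ∉ U) : pr k a c = 0 :=
  pr_eq_zero fun x hx => by
    by_contra h0
    exact hUV _ (L.mem_W.1 hc x hx) (L.mem_W.1 ha x h0)

theorem exists_W_fin (L : Lab G X) {n : ℕ} {U : Set G} {a : X n →₀ k} (ha : a ∈ (L.P n).W k U) :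
    ∃ V : Set G, V.Finite ∧ V ⊆ U ∧ a ∈ (L.P n).W k V :=
  ⟨L.l n '' a.support, a.support.finite_toSet.image _, by
    rintro _ ⟨x, hx, rfl⟩; exact L.mem_W.1 ha x (by simpa using hx),
    L.mem_W.2 fun x hx => ⟨x, by simpa using hx, rfl⟩⟩

section maps

variable {R : FR G X} {L : Lab G X} {h : FD d G K₀}

/-- pull back of cochains to the cells -/
def gs (g : Mp (cell R k L) (h.sing k)) {n : ℕ} (φ : Co k n T) : X n →₀ k :=
  toF fun x => (ev k φ ∘ₗ g.f n) (Finsupp.single x 1)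

/-- pull back of cellular cochains to the manifold -/
def fs (f : Mp (h.sing k) (cell R k L)) (n : ℕ) : (X n →₀ k) →ₗ[k] Co k n T where
  toFun a σ := pr k a (f.f n (rh G K₀ k n (sg k σ)))
  map_add' a b := by funext σ; exact pr_add _ _ _
  map_smul' r a := by funext σ; exact pr_smul _ _ _

variable (f : Mp (h.sing k) (cell R k L)) (g : Mp (cell R k L) (h.sing k))

theorem ev_fs {n : ℕ} (a : X n →₀ k) (c : Ch k n T) :
    ev k (fs f n a) c = pr k a (f.f n (rh G K₀ k n c)) :=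
  (map_eq_ev (pr k a ∘ₗ f.f n ∘ₗ rh G K₀ k n) c).symm

theorem cob_fs {n : ℕ} (a : X n →₀ k) : cob k (fs f n a) = fs f (n + 1) (bc k (R.de n) a) := by
  funext σ
  rw [← ev_sg (k := k) (cob k (fs f n a)), ← ev_bd, ev_fs]
  show _ = pr k _ _
  rw [pr_de, rh, ← Sml.bd_rho]
  exact congrArg (pr k a) (f.ch n _).symm

theorem fs_van (n : ℕ) : ∃ S : Set G, S.Finite ∧ ∀ U : Set G, ∀ a ∈ (L.P n).W k U,
    fs f n a ∈ (On (sat (U * S) K₀)ᶜ).van k k n := by
  obtain ⟨S, hS, h1⟩ := h.sing_any (f.eqv n) (f.ctl n)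
  refine ⟨S⁻¹, hS.inv, fun U a ha σ hσ => pr_W L ha (h1 _ _ (Sb.sg_mem hσ)) ?_⟩
  rintro _ ⟨x, hx, s, hs, rfl⟩ hU
  exact shs_compl_sat _ hx ⟨_, hU, s⁻¹, by simpa using hs, by simp⟩

theorem gs_supp (n : ℕ) : ∃ S : Set G, S.Finite ∧ ∀ K : Set T, ∀ φ ∈ (On Kᶜ).van k k n, ∀ x : X n,
    (ev k φ ∘ₗ g.f n) (Finsupp.single x 1) ≠ 0 → L.l n x ∈ shs G K₀ K * S := by
  obtain ⟨S, hS, h1⟩ := h.cell_sing L (g.eqv n) (g.ctl n)
  refine ⟨S⁻¹, hS.inv, fun K φ hφ x hx => ?_⟩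
  by_contra h0
  refine hx (h.ev_zero hφ (h1 {L.l n x} _ ((L.P n).single_mem Subset.rfl 1)) ?_)
  rintro _ ⟨_, rfl, s, hs, rfl⟩ h2
  exact h0 ⟨_, h2, s⁻¹, by simpa using hs, by simp⟩

theorem gs_fin {n : ℕ} {K : Set T} (hK : IsCompact K) {φ : Co k n T} (hφ : φ ∈ (On Kᶜ).van k k n) :
    (Function.support fun x => (ev k φ ∘ₗ g.f n) (Finsupp.single x 1)).Finite := by
  obtain ⟨S, hS, h1⟩ := gs_supp g n
  exact (L.fin R n ((h.gm.shs_finite h.cpt hK).mul hS)).subset fun x hx => h1 K φ hφ x hx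

theorem pr_gs {n : ℕ} {K : Set T} (hK : IsCompact K) {φ : Co k n T} (hφ : φ ∈ (On Kᶜ).van k k n)
    (c : X n →₀ k) : pr k (gs g φ) c = ev k φ (g.f n c) := pr_toF (gs_fin g hK hφ) c

theorem gs_apply {n : ℕ} {K : Set T} (hK : IsCompact K) {φ : Co k n T} (hφ : φ ∈ (On Kᶜ).van k k n)
    (x : X n) : gs g φ x = ev k φ (g.f n (Finsupp.single x 1)) := toF_apply (gs_fin g hK hφ) x

theorem gs_mem (n : ℕ) : ∃ S : Set G, S.Finite ∧ ∀ K : Set T, IsCompact K →
    ∀ φ ∈ (On Kᶜ).van k k n, gs g φ ∈ (L.P n).W k (shs G K₀ K * S) := by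
  obtain ⟨S, hS, h1⟩ := gs_supp g n
  exact ⟨S, hS, fun K hK φ hφ => L.mem_W.2 fun x hx => h1 K φ hφ x (by rwa [gs_apply g hK hφ] at hx)⟩

theorem de_gs {n : ℕ} {K : Set T} (hK : IsCompact K) {φ : Co k n T} (hφ : φ ∈ (On Kᶜ).van k k n) :
    bc k (R.de n) (gs g φ) = gs g (cob k φ) :=
  eq_of_pr fun c => by
    rw [pr_de, pr_gs g hK hφ, pr_gs g hK (Sb.cob_mem hφ), ← ev_bd]
    exact congrArg (ev k φ) (g.ch n c).symm

theorem gs_zero (n : ℕ) : gs g (0 : Co k n T) = 0 :=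
  eq_of_pr fun c => by
    rw [pr_gs g isCompact_empty (Submodule.zero_mem _)]
    simp [pr, ev]



variable {f g}

/-- a compactly supported cocycle is cohomologous to `fs (gs φ)`, with control -/
theorem decomp (H : Ht (g.comp f) (Mp.id (h.sing k))) (n : ℕ) : ∃ S : Set G, S.Finite ∧
    ∀ K : Set T, IsCompact K → ∀ φ ∈ (On Kᶜ).van k k (n + 1), cob k φ = 0 →
      ∃ η ∈ (On (K ∪ sat (shs G K₀ K * S) K₀)ᶜ).van k k n,
        φ = fs f (n + 1) (gs g φ) + cob k η := by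
  obtain ⟨S, hS, h1⟩ := h.sing_any (H.eqv n) (H.ctl n)
  refine ⟨S⁻¹, hS.inv, fun K hK φ hφ h0 => ?_⟩
  let E : Ch k n T →ₗ[k] k := ev k φ ∘ₗ (dh G K₀ k n - H.h n ∘ₗ rh G K₀ k n)
  refine ⟨fun σ => E (sg k σ), fun σ hσ => ?_, ?_⟩
  · have a1 : ev k φ (dh G K₀ k n (sg k σ)) = 0 := Sb.ev_eq_zero hφ (Sml.DD_mem k _ _
      (Sb.sg_mem (Subset.trans hσ (compl_subset_compl.2 subset_union_left))))
    have a2 : ev k φ (H.h n (rh G K₀ k n (sg k σ))) = 0 := by
      refine h.ev_zero hφ (h1 _ _ (Sb.sg_mem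
        (Subset.trans hσ (compl_subset_compl.2 subset_union_right)))) ?_
      rintro _ ⟨x, hx, s, hs, rfl⟩ hU
      exact shs_compl_sat _ hx ⟨_, hU, s⁻¹, by simpa using hs, by simp⟩
    show ev k φ (dh G K₀ k n (sg k σ) - H.h n (rh G K₀ k n (sg k σ))) = 0
    rw [map_sub, a1, a2, sub_zero]
  · funext σ
    have e1 : cob k (fun σ => E (sg k σ)) σ = E (bd k (sg k σ)) := by
      rw [← ev_sg (k := k) (cob k _), ← ev_bd, ← map_eq_ev]
    have e2 : fs f (n + 1) (gs g φ) σ =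
        ev k φ (g.f (n + 1) (f.f (n + 1) (rh G K₀ k (n + 1) (sg k σ)))) := pr_gs g hK hφ _
    have e3 := H.hs n (rh G K₀ k (n + 1) (sg k σ))
    have e4 : g.f (n + 1) (f.f (n + 1) (rh G K₀ k (n + 1) (sg k σ))) =
        bd k (H.h (n + 1) (rh G K₀ k (n + 1) (sg k σ))) +
          H.h n (rh G K₀ k n (bd k (sg k σ))) + rh G K₀ k (n + 1) (sg k σ) := by
      rw [rh, rh, ← Sml.bd_rho]
      exact (eq_sub_iff_add_eq.1 e3).symm
    have e5 : ∀ c, ev k φ (bd k c) = 0 := fun c => by rw [ev_bd, h0, ev_zero]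
    rw [Pi.add_apply, e1, e2, e4]
    show _ = _ + ev k φ (dh G K₀ k n (bd k (sg k σ)) - H.h n (rh G K₀ k n (bd k (sg k σ))))
    rw [map_add, map_add, e5, map_sub, rh, rh, Sml.rho_succ, map_sub, map_sub, e5, ev_sg, dh]
    ring

theorem decomp_zero (H : Ht (g.comp f) (Mp.id (h.sing k))) {K : Set T} (hK : IsCompact K)
    {φ : Co k 0 T} (hφ : φ ∈ (On Kᶜ).van k k 0) (h0 : cob k φ = 0) : φ = fs f 0 (gs g φ) := by
  funext σ
  have e2 : fs f 0 (gs g φ) σ = ev k φ (g.f 0 (f.f 0 (sg k σ))) := pr_gs g hK hφ _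
  have e4 : g.f 0 (f.f 0 (sg k σ)) = bd k (H.h 0 (sg k σ)) + sg k σ :=
    (eq_sub_iff_add_eq.1 (H.h0 (sg k σ))).symm
  rw [e2, e4, map_add, ev_bd, h0, ev_zero, ev_sg, zero_add]



theorem hc_kill_zero (H : Ht (g.comp f) (Mp.id (h.sing k)))
    (hk : ∀ a : X 0 →₀ k, bc k (R.de 0) a = 0 → a = 0) {K : Set T} (hK : IsCompact K)
    {φ : Co k 0 T} (hφ : φ ∈ (On Kᶜ).van k k 0) (h0 : cob k φ = 0) : φ = 0 := by
  rw [decomp_zero H hK hφ h0, hk (gs g φ) (by rw [de_gs g hK hφ, h0, gs_zero]), map_zero]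


end maps

end Crest.Agent.N255.Gs

end
end

-- ▼ part N255/Gs/Ori
section

/-!
# Row 255, block D (helper58): the orientation of the `G`-manifold which comes from the group
-/

set_option autoImplicit false
open Set Filter Topology
open scoped Pointwise

noncomputable section

namespace Crest.Agent.N255.Gs

open Crest.Agent.N255.Tp Crest.Agent.N255.Uc Crest.Agent.N255.Gc
open Finsupp (single)

variable {G T : Type} [Group G] [TopologicalSpace T] [MulAction G T] [ContinuousConstSMul G T]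
  {d n m : ℕ} {X : ℕ → Type} [∀ n, MulAction G (X n)] {k : Type} [Field k]

/-- the part of the infinite chain `c` on `F` -/
def cutc {A : Type} (c : A → k) (F : Finset A) : A →₀ k := ∑ x ∈ F, single x (c x)

open Classical in
theorem cutc_apply {A : Type} (c : A → k) (F : Finset A) (x : A) :
    cutc c F x = if x ∈ F then c x else 0 := by
  simp [cutc, Finsupp.finsetSum_apply, Finsupp.single_apply]

theorem pr_cutc {A : Type} (c : A → k) {F : Finset A} {φ : A →₀ k} (h : ∀ x, φ x ≠ 0 → x ∈ F) :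
    pr k φ (cutc c F) = Finsupp.linearCombination k c φ := by
  rw [pr_comm, pr, Finsupp.linearCombination_apply, Finsupp.linearCombination_apply]
  refine Finsupp.sum_congr fun x hx => ?_
  rw [cutc_apply, if_pos (h x (Finsupp.mem_support_iff.1 hx))]

theorem pr_far {A : Type} [MulAction G A] {P : Sh G A} (L : Lab G X)
    {F : (A →₀ k) →ₗ[k] (X n →₀ k)} (he : Eqv G F) (hc : Ctl P (L.P n) F) {S : Set G}
    (hS : S.Finite) (a : X n →₀ k) : ∃ S' : Set G, S'.Finite ∧ ∀ γ ∉ S', ∀ c ∈ P.W k (γ • S),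
      pr k a (F c) = 0 := by
  obtain ⟨S1, h1, h2, -⟩ := hc.unif he hS
  refine ⟨L.l n '' a.support * S1⁻¹, (a.support.finite_toSet.image _).mul h1.inv,
    fun γ hγ c hc => pr_eq_zero fun x hx => ?_⟩
  by_contra h0
  obtain ⟨s, hs, e⟩ := L.mem_W.1 (h2 γ c hc) x hx
  exact hγ ⟨_, ⟨x, by simpa using h0, rfl⟩, s⁻¹, by simpa using hs, by simp [← e]⟩

theorem single_mem_lab (L : Lab G X) (x : X n) (r : k) :
    single x r ∈ (L.P n).W k (L.l n x • ({1} : Set G)) :=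
  (L.P n).single_mem (by simp [Lab.P, Sh.ofLab]) r

variable {R : FR G X} {L : Lab G X} {K0 : Set T} {h : FD d G K0}

section
variable (g : Mp (cell R k L) (h.sing k))

theorem g_mem (n : ℕ) : ∃ S : Set G, S.Finite ∧ ∀ x : X n,
    g.f n (single x 1) ∈ (On (cor K0 (L.l n x • S))).ch k n := by
  obtain ⟨S, h1, h2, -⟩ := (g.ctl n).unif (g.eqv n) (finite_singleton 1)
  exact ⟨S, h1, fun x => h.W_eq' k _ ▸ h2 _ _ (single_mem_lab L x 1)⟩

/-- cells far from `A` are mapped off `A` -/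
theorem g_off (n : ℕ) : ∃ S : Set G, S.Finite ∧ ∀ (A : Set T) (x : X n),
    L.l n x ∉ shs G K0 A * S → g.f n (single x 1) ∈ (On Aᶜ).ch k n := by
  obtain ⟨S, h1, h2⟩ := g_mem g n
  refine ⟨S⁻¹, h1.inv, fun A x hx => ch_mono (V := Aᶜ) (fun p hp hA => hx ?_) (h2 x)⟩
  obtain ⟨γ, hγ⟩ := h.cov' p
  obtain ⟨s, hs, e⟩ := hp γ hγ
  exact ⟨γ, ⟨p, hA, hγ⟩, s⁻¹, by simpa using hs, by simp [← e]⟩

/-- cells whose image meets `A` -/
def Mt (n : ℕ) (A : Set T) : Set (X n) := {x | g.f n (single x 1) ∉ (On Aᶜ).ch k n}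

theorem mt_finite (n : ℕ) {A : Set T} (hA : IsCompact A) : (Mt g n A).Finite := by
  obtain ⟨S, h1, h2⟩ := g_off g n
  exact (L.fin R n ((h.gm.shs_finite h.cpt hA).mul h1)).subset fun x hx => by
    by_contra h0; exact hx (h2 A x h0)

theorem g_mem_of {A : Set T} {c : X n →₀ k} (hc : ∀ x, c x ≠ 0 → x ∉ Mt g n A) :
    g.f n c ∈ (On Aᶜ).ch k n :=
  map_mem_of (s := (Mt g n A)ᶜ) (fun _ ha => not_not.1 ha)
    ((Finsupp.mem_supported k c).2 fun x hx => hc x (by simpa using hx))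

theorem mt_smul (γ : G) {A : Set T} {x : X n} (hx : γ • x ∈ Mt g n (γ • A)) : x ∈ Mt g n A := by
  intro h0
  refine hx ?_
  rw [← tr_single, g.eqv, tr_eq_push]
  exact push_mem (U := Aᶜ) (V := (γ • A)ᶜ) (fun p hp hp' => hp (smul_mem_smul_set_iff.1 hp')) h0

/-- the cofaces of a set of cells -/
def Cf (R : FR G X) (k : Type) [Field k] (B : Set (X m)) : Set (X (m + 1)) :=
  {x | ∃ y ∈ B, bc k (R.de m) (single y 1) x ≠ 0}

theorem cf_finite {B : Set (X m)} (hB : B.Finite) : (Cf R k B).Finite :=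
  (hB.biUnion fun y _ => (bc k (R.de m) (single y 1)).support.finite_toSet).subset
    fun x ⟨y, hy, hx⟩ => mem_biUnion hy (by simpa using hx)

/-- the cells which are needed along `A` -/
def Gd (m : ℕ) (A : Set T) : Set (X (m + 1)) := Mt g (m + 1) A ∪ Cf R k (Mt g m A)

theorem gd_finite (m : ℕ) {A : Set T} (hA : IsCompact A) : (Gd g m A).Finite :=
  (mt_finite g _ hA).union (cf_finite (mt_finite g _ hA))

theorem gd_smul (γ : G) {A : Set T} {x : X (m + 1)} (hx : γ • x ∈ Gd g m (γ • A)) :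
    x ∈ Gd g m A := by
  rcases hx with hx | ⟨y, hy, hx⟩
  · exact Or.inl (mt_smul g γ hx)
  · refine Or.inr ⟨γ⁻¹ • y, mt_smul g γ (by rwa [smul_inv_smul]), ?_⟩
    rwa [bc_apply, FR.de_single, ← R.d_smul m γ, smul_inv_smul, ← FR.de_single, ← bc_apply]

theorem gd_mono {A B : Set T} (hAB : A ⊆ B) : Gd g m A ⊆ Gd g m B := by
  have : ∀ n, Mt g n A ⊆ Mt g n B := fun n x hx h0 =>
    hx (ch_mono (compl_subset_compl.2 hAB) h0)
  exact union_subset_union (this _) fun x ⟨y, hy, hx⟩ => ⟨y, this _ hy, hx⟩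

end

/-- a locally finite cycle of the cellular complex -/
def LFc (R : FR G X) (c : X (m + 1) → k) : Prop :=
  ∀ φ : X m →₀ k, Finsupp.linearCombination k c (bc k (R.de m) φ) = 0

theorem LFc.d_cutc {c : X (m + 1) → k} (hc : LFc R c) {F : Finset (X (m + 1))} {B : Set (X m)}
    (hF : Cf R k B ⊆ F) {y : X m} (hy : y ∈ B) : bc k (R.d m) (cutc c F) y = 0 := by
  have := pr_de R m (single y 1) (cutc c F)
  rw [pr_cutc c fun x hx => hF ⟨y, hy, hx⟩, hc, pr_comm, pr_single, one_mul] at this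
  exact this.symm

variable (g : Mp (cell R k L) (h.sing k)) {c : X (m + 1) → k} (hc : LFc R c)

theorem bd_g (n : ℕ) (w : X (n + 1) →₀ k) : bd k (g.f (n + 1) w) = g.f n (bc k (R.d n) w) :=
  g.ch n w

include hc in
theorem rc_cutc {A : Set T} {F : Finset (X (m + 1))} (hF : Gd g m A ⊆ F) :
    bd k (g.f (m + 1) (cutc c F)) ∈ (On Aᶜ).ch k m := by
  rw [bd_g]
  exact g_mem_of g fun y hy hy' => hy (hc.d_cutc (subset_union_right.trans hF) hy')

theorem sub_cutc (c : X (m + 1) → k) {A : Set T} {F F' : Finset (X (m + 1))} (hF : Gd g m A ⊆ F)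
    (hF' : Gd g m A ⊆ F') :
    g.f (m + 1) (cutc c F) - g.f (m + 1) (cutc c F') ∈ (On Aᶜ).ch k (m + 1) := by
  rw [← map_sub]
  refine g_mem_of g fun x hx hx' => hx ?_
  rw [Finsupp.sub_apply, cutc_apply, cutc_apply, if_pos (show x ∈ F from hF (Or.inl hx')),
    if_pos (show x ∈ F' from hF' (Or.inl hx')), sub_self]

open Classical in
/-- the finite set of needed cells -/
def gdF (m : ℕ) (A : Set T) : Finset (X (m + 1)) :=
  if h : (Gd g m A).Finite then h.toFinset else ∅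

theorem gd_sub {A : Set T} (hA : IsCompact A) : Gd g m A ⊆ gdF g m A := by
  rw [gdF, dif_pos (gd_finite g m hA)]; simp

/-- **the orientation** -/
def ori : Ori k m T where
  μ A := g.f (m + 1) (cutc c (gdF g m A))
  rc _ hA := rc_cutc g hc (gd_sub g hA)
  cmp _ _ hA hB hAB := ch_le_Nul (sub_cutc g c ((gd_mono g hAB).trans (gd_sub g hB)) (gd_sub g hA))

theorem ori_fund {A : Set T} (hA : IsCompact A) {F : Finset (X (m + 1))} (hF : Gd g m A ⊆ F) :
    (ori g hc).Fund A (g.f (m + 1) (cutc c F)) :=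
  ⟨rc_cutc g hc hF, ch_le_Nul (sub_cutc g c hF (gd_sub g hA))⟩

/-- evaluation of a compactly supported cocycle on the fundamental class, in terms of cells -/
theorem ori_ev {V : Type} [AddCommGroup V] [Module k V] {A : Set T} (hA : IsCompact A)
    {z : Ch k (m + 1) T} (hz : (ori g hc).Fund A z) {φ : Co V (m + 1) T}
    (hφ : φ ∈ (On Aᶜ).van k V (m + 1)) (h0 : cob k φ = 0) {F : Finset (X (m + 1))}
    (hF : Mt g (m + 1) A ⊆ F) :
    ev k φ z = ∑ x ∈ F, c x • ev k φ (g.f (m + 1) (single x 1)) := by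
  classical
  rw [hz.ev_eq (ori_fund g hc hA (F := F ∪ gdF g m A)
    ((gd_sub g hA).trans (by simp))) hφ h0, cutc, map_sum, map_sum]
  rw [← Finset.sum_subset (Finset.subset_union_left (s₁ := F) (s₂ := gdF g m A))]
  · refine Finset.sum_congr rfl fun x _ => ?_
    rw [← map_smul, ← map_smul, Finsupp.smul_single, smul_eq_mul, mul_one]
  · intro x _ hx
    refine Sb.ev_eq_zero hφ (g_mem_of g fun y hy hy' => hx ?_)
    have : y = x := by
      by_contra e
      exact hy (Finsupp.single_eq_of_ne e)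
    exact hF (this ▸ hy')

/-- **invariance** -/
theorem ori_smul (hi : ∀ (γ : G) x, c (γ • x) = c x) (γ : G) {A : Set T} (hA : IsCompact A)
    {z : Ch k (m + 1) T} (hz : (ori g hc).Fund A z) :
    (ori g hc).Fund (γ • A) (push k (Uc.tr γ) z) := by
  classical
  have hm : MapsTo (Uc.tr γ : C(T, T)) Aᶜ (γ • A)ᶜ := fun p hp hp' =>
    hp (smul_mem_smul_set_iff.1 hp')
  have h1 := ori_fund g hc (hA.smul γ) (F := (gdF g m A).image (γ • ·)) fun x hx => by
    have : γ⁻¹ • x ∈ gdF g m A := gd_sub g hA (gd_smul g γ (by rwa [smul_inv_smul]))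
    exact Finset.mem_coe.2 (Finset.mem_image.2 ⟨_, this, smul_inv_smul γ x⟩)
  have h2 : cutc c ((gdF g m A).image (γ • ·)) = tr k γ (cutc c (gdF g m A)) := by
    rw [cutc, cutc, map_sum, Finset.sum_image fun x _ y _ e => MulAction.injective γ e]
    simp only [tr_single, hi]
  rw [h2, g.eqv, tr_eq_push] at h1
  refine ⟨by rw [bd_push]; exact push_mem hm hz.rc, ?_⟩
  obtain ⟨b, hb⟩ := mem_Nul.1 hz.eq
  have h3 : push k (Uc.tr γ) z - push k (Uc.tr γ) ((ori g hc).μ A) ∈ Nul k (γ • A)ᶜ (m + 1) :=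
    mem_Nul.2 ⟨push k (Uc.tr γ) b, by
      rw [bd_push, ← map_sub, ← map_sub]; exact push_mem hm hb⟩
  have := Submodule.add_mem _ h3 h1.eq
  rwa [show (ori g hc).μ A = g.f (m + 1) (cutc c (gdF g m A)) from rfl, sub_add_sub_cancel] at this

/-- the pull back of a finitely supported cellular cochain -/
def fsh (f : Mp (h.sing k) (cell R k L)) (a : X n →₀ k) : Co k n T :=
  fun σ => pr k a (f.f n (sg k σ))

theorem ev_fsh (f : Mp (h.sing k) (cell R k L)) (a : X n →₀ k) (z : Ch k n T) :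
    ev k (fsh f a) z = pr k a (f.f n z) :=
  (map_eq_ev (pr k a ∘ₗ f.f n) z).symm

theorem cob_fsh (f : Mp (h.sing k) (cell R k L)) (a : X n →₀ k) :
    cob k (fsh f a) = fsh f (bc k (R.de n) a) := by
  funext σ
  rw [← ev_sg (k := k) (cob k _), ← ev_bd, ev_fsh, fsh, pr_de]
  exact congrArg (pr k a) (f.ch n (sg k σ)).symm

/-- the class of the family is not zero -/
theorem ori_ne (f : Mp (h.sing k) (cell R k L)) (H : Ht (f.comp g) (Mp.id _)) {a : X (m + 1) →₀ k}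
    (h0 : bc k (R.de (m + 1)) a = 0) : ∃ (A : Set T) (φ : Co k (m + 1) T), IsCompact A ∧
      φ ∈ (On Aᶜ).van k k (m + 1) ∧ cob k φ = 0 ∧
      ev k φ ((ori g hc).μ A) = Finsupp.linearCombination k c a := by
  classical
  obtain ⟨S1, h1, -, h2⟩ := (f.ctl (m + 1)).unif (f.eqv (m + 1)) h.nb_finite
  have hA : IsCompact (sat (L.l (m + 1) '' (a.support : Set (X (m + 1))) * S1⁻¹) K0) :=
    isCompact_sat ((a.support.finite_toSet.image _).mul h1.inv) h.cpt
  set A := sat (L.l (m + 1) '' (a.support : Set (X (m + 1))) * S1⁻¹) K0 with hAd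
  have hc0 : cob k (fsh f a) = 0 := by
    rw [cob_fsh, h0]; funext σ; simp [fsh, pr]
  obtain ⟨ψ, hψ, hψ'⟩ := smVanS_holds k k T Aᶜ (FD.cvr G K0) FD.cvr_open (h.cvr_cover _) m (fsh f a)
    (by rw [Sb.mem_Z, hc0]; exact Submodule.zero_mem _) fun σ hσ => by
      refine pr_eq_zero fun x hx => ?_
      by_contra ha
      obtain ⟨u, ⟨p, hp, hu⟩, s, hs, e⟩ :=
        L.mem_W.1 (h2 _ _ (h.small_le_Ws k Aᶜ (Sb.sg_mem hσ))).1 x hx
      exact hp ⟨u, ⟨_, ⟨x, by simpa using ha, rfl⟩, s⁻¹, by simpa using hs, by simp [← e]⟩, hu⟩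
  have hφ : fsh f a - cob k ψ ∈ (On Aᶜ).van k k (m + 1) := by
    simpa using Submodule.neg_mem _ hψ
  have hφ0 : cob k (fsh f a - cob k ψ) = 0 := by simp [hc0]
  refine ⟨A, _, hA, hφ, hφ0, ?_⟩
  obtain ⟨S2, h3, h4⟩ := pr_far L (H.eqv m) (H.ctl m) (finite_singleton 1) a
  obtain ⟨S3, h5, h6⟩ := g_mem g m
  obtain ⟨S4, h7, h8⟩ := pr_far L (f.eqv (m + 1)) (f.ctl (m + 1)) h5 a
  have hB := L.fin R m (h3.union h7)
  let F : Finset (X (m + 1)) := gdF g m A ∪ a.support ∪ (cf_finite (R := R) (k := k) hB).toFinset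
  have hF := ori_fund g hc hA (F := F) ((gd_sub g hA).trans fun x hx => by simp [F, hx])
  have hd : bc k (R.d m) (cutc c F) ∈ Finsupp.supported k k {y | L.l m y ∉ S2 ∪ S4} :=
    (Finsupp.mem_supported k _).2 fun y hy hy' => Finsupp.mem_support_iff.1 hy
      (hc.d_cutc (B := {y | L.l m y ∈ S2 ∪ S4}) (fun x hx => by
        simp only [F, Finset.coe_union, Finite.coe_toFinset]; exact Or.inr hx) hy')
  have hz : ∀ (Λ : (X m →₀ k) →ₗ[k] k), (∀ y, L.l m y ∉ S2 ∪ S4 → Λ (single y 1) = 0) →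
      Λ (bc k (R.d m) (cutc c F)) = 0 := fun Λ hΛ => by
    rw [Finsupp.supported_eq_span_single] at hd
    exact (Submodule.span_le (p := LinearMap.ker Λ)).2 (by rintro _ ⟨y, hy, rfl⟩; exact hΛ y hy) hd
  have e1 : pr k a (H.h m (bc k (R.d m) (cutc c F))) = 0 :=
    hz (pr k a ∘ₗ H.h m) fun y hy => h4 _ (fun h => hy (Or.inl h)) _ (single_mem_lab L y 1)
  have e2 : ev k ψ (g.f m (bc k (R.d m) (cutc c F))) = 0 :=
    hz (ev k ψ ∘ₗ g.f m) fun y hy => Sb.ev_eq_zero (hψ' _ fun σ hσ =>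
      h8 _ (fun h => hy (Or.inr h)) _ (by
        rw [h.sing_P, h.W_eq']
        exact Sb.sg_mem (mem_On.2 ((mem_On.1 hσ).trans inter_subset_left)))) (h6 y)
  have e3 := H.hs m (cutc c F)
  have e4 : f.f (m + 1) (g.f (m + 1) (cutc c F)) = cutc c F +
      (bc k (R.d (m + 1)) (H.h (m + 1) (cutc c F)) + H.h m (bc k (R.d m) (cutc c F))) :=
    (eq_sub_iff_add_eq'.1 e3).symm
  rw [((ori g hc).fund_μ hA).ev_eq hF hφ hφ0, ev_sub, ← ev_bd, bd_g, e2, sub_zero, ev_fsh, e4,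
    map_add, map_add, e1, ← pr_de, h0, pr_cutc c fun x hx => by simp [F, hx]]
  simp [pr]

/-- **non zero local degree** -/
theorem ori_nd [T2Space T] [ChartedSpace (EE (m + 1)) T] {a : X (m + 1) →₀ k}
    (h0 : bc k (R.de (m + 1)) a = 0) (h1 : Finsupp.linearCombination k c a ≠ 0) :
    (ori g hc).ND := by
  have := gm_countable h.gm
  have := h.gm.pc
  obtain ⟨f⟩ := exists_mp (h.sing k) (cell R k L)
  obtain ⟨H⟩ := exists_ht (f.comp g) (Mp.id _)
  obtain ⟨A, φ, h2, h3, h4, h5⟩ := ori_ne g hc f H h0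
  exact ndS_of smVanS_holds locS_holds k m T _ A φ h2 h3 h4 (h5 ▸ h1)



end Crest.Agent.N255.Gs

end
end

-- ▼ part N255/Gs/Far

/-!
# Row 255, block D (helper89): open sets of the manifold which lie over a set of cells with the
compactly supported cohomology of Euclidean space are pro-acyclic
-/

set_option autoImplicit false
open Set Filter Topology
open scoped Pointwise

noncomputable section

namespace Crest.Agent.N255.Tp

variable {Y : Type} [TopologicalSpace Y] {n : ℕ} {U V U' V' : Set Y}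

section ring

variable {k : Type} [CommRing k] {A : Type} [AddCommGroup A] [Module k A]

theorem Acy.mono (h : Acy k U V) (hU : U' ⊆ U) (hV : V ⊆ V') : Acy k U' V' :=
  fun n _ hc => B_mono hV (h n ⟨ch_mono hU hc.1, hc.2⟩)

theorem Acy.bd (h : Acy k U V) {c : Ch k (n + 1) Y} (hc : c ∈ (On U).ch k (n + 1))
    (h0 : bd k c = 0) : c ∈ (On V).B k (n + 1) := h (n + 1) ⟨hc, h0⟩

theorem Acy.aug (h : Acy k U V) {c : Ch k 0 Y} (hc : c ∈ (On U).ch k 0) (h0 : aug k c = 0) :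
    c ∈ (On V).B k 0 := h 0 ⟨hc, h0⟩

/-- closed `0`-cochains are constant -/
theorem Acy.const (h : Acy k U V) {φ : Co A 0 Y} (hφ : φ ∈ (On V).Z k A 0) {σ τ : Sx 0 Y}
    (hσ : range σ ⊆ U) (hτ : range τ ⊆ U) : φ σ = φ τ := by
  have := Sb.ev_B hφ (h.aug (sub_mem (Sb.sg_mem (P := On U) hσ) (Sb.sg_mem (P := On U) hτ))
    (by rw [map_sub, aug_sg, aug_sg, sub_self]))
  rwa [map_sub, ev_sg, ev_sg, sub_eq_zero] at this

end ring

variable {k : Type} [Field k] {A : Type} [AddCommGroup A] [Module k A]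

/-- closed cochains become exact -/
theorem Acy.ex (h : Acy k U V) : (On V).Z k A (n + 1) ≤ (On U).Ex k A (n + 1) := fun φ hφ =>
  Det.ex_of_cyc (On U) φ fun _ hc h0 => Sb.ev_B hφ (h.bd hc h0)


variable [T2Space Y] {d : ℕ} [ChartedSpace (EE (d + 1)) Y] {O : Ori k d Y}

/-- no top dimensional homology -/
theorem top_van (hO : O.ND) (h0 : ∀ φ ∈ Cc k (univ : Set Y) k 0, cob k φ = 0 → φ = 0)
    (hU : IsOpen U) {c : Ch k (d + 1) Y} (hc : c ∈ (On U).ch k (d + 1)) (hb : bd k c = 0) :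
    c ∈ (On U).B k (d + 1) := by
  obtain ⟨φ, hφ, h1, h2⟩ := (pdS_holds k d Y O hO _ (capS_holds k Y).1 U hU).1 0 (d + 1)
    (zero_add _) c hc hb
  obtain rfl := h0 φ (Cc_mono (subset_univ _) hφ) h1
  simpa using Ori.Du.unique smChS_holds fundS_holds (capS_holds k Y).1 (zero_add _) hU h2
    Ori.du_zero h1

/-- **no homology from the dimension on** -/
theorem hi_van (hO : O.ND) (h0 : ∀ φ ∈ Cc k (univ : Set Y) k 0, cob k φ = 0 → φ = 0)
    (hU : IsOpen U) : ∀ m, d ≤ m → ∀ c ∈ (On U).ch k (m + 1), bd k c = 0 →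
      c ∈ (On U).B k (m + 1) := by
  refine openIndS_holds (d + 1) Y (fun W => ∀ m, d ≤ m → ∀ c ∈ (On W).ch k (m + 1), bd k c = 0 →
    c ∈ (On W).B k (m + 1)) (fun m _ c hc _ => ?_) (fun j hj m _ c hc h => ?_)
    (fun U V hU hV a b ab m hm c hc h => ?_) (fun 𝒰 hne ho hd m hm c hc h => ?_) U hU
  · rw [eq_zero_of_ch_empty hc]; exact zero_mem _
  · exact (cellS_holds k Y (d + 1) j hj.isEmbedding).bd hc h
  · rcases hm.eq_or_lt with rfl | hm
    · exact top_van hO h0 (hU.union hV) hc h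
    obtain ⟨m, rfl⟩ : ∃ m', m = m' + 1 := ⟨m - 1, by omega⟩
    obtain ⟨x, hx, y, hy, e⟩ := split_ch smChS_holds hU hV hc (by rw [h]; exact zero_mem _)
    have e0 : bd k x + bd k y = 0 := by
      have : bd k (c - (x + y)) = 0 := Sb.B_le_cyc e
      rwa [map_sub, h, zero_sub, neg_eq_zero, map_add] at this
    obtain ⟨w, hw, e1⟩ := ab m (by omega) (bd k x) (by
      rw [ch_inter]
      exact ⟨Sb.bd_mem hx, (eq_neg_of_add_eq_zero_left e0) ▸ neg_mem (Sb.bd_mem hy)⟩) (bd_bd x)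
    have h1 := a (m + 1) (by omega) (x - w) (sub_mem hx (ch_mono inter_subset_left hw))
      (by rw [map_sub, e1, sub_self])
    have h2 := b (m + 1) (by omega) (y + w) (add_mem hy (ch_mono inter_subset_right hw))
      (by rw [map_add, e1, add_comm (bd k y), e0])
    have := add_mem e (add_mem (B_mono subset_union_left h1) (B_mono subset_union_right h2))
    rwa [show c - (x + y) + (x - w + (y + w)) = c by abel] at this
  · obtain ⟨W, hW, h1⟩ := Ori.cpt_dir hne (fun U hU => (ho U hU).1) hd (isCompact_car c)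
      (mem_ch_iff_car.1 hc)
    exact B_mono (subset_sUnion_of_mem hW) ((ho W hW).2 m hm c (mem_ch_iff_car.2 h1) h)

/-- a cycle whose dual classes die in `V` bounds in `V` -/
theorem bounds_of_du (hO : O.ND) (hU : IsOpen U) (hV : IsOpen V) (hUV : U ⊆ V) {i j : ℕ}
    (hij : i + j = d) {c : Ch k j Y} (hc : c ∈ (On U).ch k j) (h0 : c ∈ cyc k Y j)
    (h : ∀ φ : Co k (i + 1) Y, cob k φ = 0 → O.Du (fun j _ φ => cap j φ) U φ c →
      ∃ ψ ∈ Cc k V k i, cob k ψ = φ) : c ∈ (On V).B k j := by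
  obtain ⟨φ, -, h1, h2⟩ := (pdS_holds k d Y O hO _ (capS_holds k Y).1 U hU).1 (i + 1) j
    (by omega) c hc h0
  obtain ⟨ψ, hψ, rfl⟩ := h φ h1 h2
  simpa using Ori.Du.unique smChS_holds fundS_holds (capS_holds k Y).1 (by omega) hV (h2.mono hUV)
    (Ori.du_cob fundS_holds (capS_holds k Y).1 hij hV hψ) h1

end Crest.Agent.N255.Tp

namespace Crest.Agent.N255.Gs

open Crest.Agent.N255.Tp Crest.Agent.N255.Uc Crest.Agent.N255.Gc

variable {G T : Type} [Group G] [TopologicalSpace T] [MulAction G T] [ContinuousConstSMul G T]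
  {d m : ℕ} {K₀ : Set T} {X : ℕ → Type} [∀ n, MulAction G (X n)] {k : Type} [Field k]
  {R : FR G X} {L : Lab G X} {h : FD d G K₀}
  {f : Mp (h.sing k) (cell R k L)} {g : Mp (cell R k L) (h.sing k)}

/-- killing of one cocycle -/
theorem hc_gs (H : Ht (g.comp f) (Mp.id (h.sing k))) (n : ℕ) : ∃ S : Set G, S.Finite ∧ 1 ∈ S ∧
    ∀ (U U' : Set G) (K : Set T), IsCompact K → K ⊆ sat U K₀ →
      ∀ φ ∈ (On Kᶜ).van k k (n + 1), cob k φ = 0 → gs g φ ∈ (L.P (n + 1)).W k (U * S) ∧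
        ∀ b ∈ (L.P n).W k U', bc k (R.de n) b = gs g φ →
          ∀ V : Set T, sat ((U ∪ U') * S) K₀ ⊆ V → ∃ ψ ∈ Cc k V k n, cob k ψ = φ := by
  obtain ⟨S1, f1, h1⟩ := gs_mem g (n + 1)
  obtain ⟨S2, f2, h2⟩ := fs_van f n
  obtain ⟨S3, f3, h3⟩ := decomp H n
  let M := shs G K₀ K₀
  have fM : M.Finite := h.nb_finite
  refine ⟨{1} ∪ (M * S1 ∪ (S2 ∪ M * S3)), (finite_singleton 1).union
    ((fM.mul f1).union (f2.union (fM.mul f3))), Or.inl rfl, fun U U' K hK hKU φ hφ h0 => ?_⟩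
  have hs : shs G K₀ K ⊆ U * M := (shs_mono hKU).trans (shs_sat U K₀)
  have fK := h.gm.shs_finite h.cpt hK
  refine ⟨(L.P (n + 1)).W_mono (by
    refine (mul_subset_mul_right hs).trans ?_
    rw [mul_assoc]
    exact mul_subset_mul_left fun x hx => Or.inr (Or.inl hx)) (h1 K hK φ hφ),
    fun b hb e W hW => ?_⟩
  obtain ⟨V, fV, hV, hb'⟩ := exists_W_fin L hb
  obtain ⟨η, hη, e'⟩ := h3 K hK φ hφ h0
  refine ⟨fs f n b + η, ⟨(K ∪ sat (shs G K₀ K * S3) K₀) ∪ sat (V * S2) K₀,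
    (hK.union (isCompact_sat (fK.mul f3) h.cpt)).union (isCompact_sat (fV.mul f2) h.cpt),
    (union_subset (union_subset (hKU.trans (sat_mono ?_ Subset.rfl)) (sat_mono ?_ Subset.rfl))
      (sat_mono ?_ Subset.rfl)).trans hW,
    add_mem (van_supp subset_union_right (h2 V b hb')) (van_supp subset_union_left hη)⟩, ?_⟩
  · exact fun x hx => ⟨x, Or.inl hx, 1, Or.inl rfl, mul_one x⟩
  · refine (mul_subset_mul_right hs).trans ?_
    rw [mul_assoc]
    exact mul_subset_mul subset_union_left fun x hx => Or.inr (Or.inr (Or.inr hx))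
  · exact mul_subset_mul (hV.trans subset_union_right) fun x hx => Or.inr (Or.inr (Or.inl hx))
  · rw [map_add, cob_fs, e]; exact e'.symm

variable {c : X (m + 1) → k}

/-- the value of a cocycle on the fundamental class, on the cells -/
theorem lc_gs (hc : LFc R c) {K : Set T} (hK : IsCompact K) {φ : Co k (m + 1) T}
    (hφ : φ ∈ (On Kᶜ).van k k (m + 1)) (h0 : cob k φ = 0) {z : Ch k (m + 1) T}
    (hz : (ori g hc).Fund K z) : Finsupp.linearCombination k c (gs g φ) = ev k φ z := by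
  classical
  rw [hz.ev_eq (ori_fund g hc hK (F := gdF g m K ∪ (gs g φ).support)
    ((gd_sub g hK).trans (by simp))) hφ h0, ← pr_gs g hK hφ, pr_cutc c fun x hx => by simp [hx]]

/-- the compactly supported cellular cohomology over `U` is, after passing to `U'`, that of Euclidean
space of dimension `m + 1` -/
structure Euc (R : FR G X) (L : Lab G X) (c : X (m + 1) → k) (U U' : Set G) : Prop where
  mid : ∀ n, n < m → ∀ a ∈ (L.P (n + 1)).W k U, bc k (R.de (n + 1)) a = 0 →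
    ∃ b ∈ (L.P n).W k U', bc k (R.de n) b = a
  top : ∀ a ∈ (L.P (m + 1)).W k U, bc k (R.de (m + 1)) a = 0 →
    Finsupp.linearCombination k c a = 0 → ∃ b ∈ (L.P m).W k U', bc k (R.de m) b = a

theorem Euc.mono {U U' V V' : Set G} (e : Euc R L c U U') (hU : V ⊆ U) (hV : U' ⊆ V') :
    Euc R L c V V' :=
  ⟨fun n hn a ha h0 => (e.mid n hn a ((L.P _).W_mono hU ha) h0).imp fun _ hb =>
      ⟨(L.P _).W_mono hV hb.1, hb.2⟩,
    fun a ha h0 h1 => (e.top a ((L.P _).W_mono hU ha) h0 h1).imp fun _ hb =>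
      ⟨(L.P _).W_mono hV hb.1, hb.2⟩⟩

/-- no compactly supported `0`-cocycles -/
theorem no_c0 (H : Ht (g.comp f) (Mp.id (h.sing k)))
    (hk : ∀ a : X 0 →₀ k, bc k (R.de 0) a = 0 → a = 0) :
    ∀ φ ∈ Cc k (univ : Set T) k 0, cob k φ = 0 → φ = 0 :=
  fun _ ⟨_, hK, _, hφ⟩ h0 => hc_kill_zero H hk hK hφ h0

/-- **far sets are pro-acyclic** -/
theorem acy_of_cells [T2Space T] [ChartedSpace (EE (m + 1)) T]
    (H : Ht (g.comp f) (Mp.id (h.sing k))) (hc : LFc R c) (hO : (ori g hc).ND)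
    (hk : ∀ a : X 0 →₀ k, bc k (R.de 0) a = 0 → a = 0) : ∃ S : Set G, S.Finite ∧ 1 ∈ S ∧
    ∀ U U' : Set G, Euc R L c (U * S) U' → ∀ V V' : Set T, IsOpen V → V ⊆ sat U K₀ → IsOpen V' →
      sat ((U ∪ U') * S) K₀ ⊆ V' → Acy k V V' := by
  choose S f1 h1 h2 using hc_gs H
  have hS : ∀ n, n ≤ m → S n ⊆ ⋃ n ∈ Iic m, S n := fun n hn => subset_biUnion_of_mem (u := S) hn
  refine ⟨⋃ n ∈ Iic m, S n, (finite_Iic m).biUnion fun n _ => f1 n, hS m le_rfl (h1 m),
    fun U U' e V V' hV hVU hV' hU' j z hz => ?_⟩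
  have hVV : V ⊆ V' := hVU.trans (Subset.trans (sat_mono (fun x hx => mem_mul.2
    ⟨x, Or.inl hx, 1, hS m le_rfl (h1 m), mul_one x⟩) Subset.rfl) hU')
  have hs : ∀ n, n ≤ m → sat ((U ∪ U') * S n) K₀ ⊆ V' := fun n hn =>
    (sat_mono (mul_subset_mul_left (hS n hn)) Subset.rfl).trans hU'
  rcases j with _ | j
  · refine bounds_of_du hO hV hV' hVV (add_zero m) hz.1 trivial
      fun φ h0 ⟨K, w, a1, a2, a3, _, a5, a6⟩ => ?_
    obtain ⟨b1, b2⟩ := h2 m U U' K a1 (a2.trans hVU) φ a3 h0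
    obtain ⟨b, hb, e'⟩ := e.top _ ((L.P _).W_mono (mul_subset_mul_left (hS m le_rfl)) b1)
      (by rw [de_gs g a1 a3, h0, gs_zero]) (by
        obtain ⟨y, -, hy⟩ := a6
        have := congrArg (aug k) hy
        rw [aug_bd, map_sub, show aug k z = 0 from hz.2, sub_zero, (capS_holds k T).1.aug] at this
        rw [lc_gs hc a1 a3 h0 a5, ← this])
    exact b2 b hb e' V' (hs m le_rfl)
  rcases lt_or_ge j m with hj | hj
  · refine bounds_of_du (i := m - (j + 1)) hO hV hV' hVV (by omega) hz.1 hz.2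
      fun φ h0 ⟨K, w, a1, a2, a3, _⟩ => ?_
    obtain ⟨b1, b2⟩ := h2 _ U U' K a1 (a2.trans hVU) φ a3 h0
    obtain ⟨b, hb, e'⟩ := e.mid _ (by omega) _
      ((L.P _).W_mono (mul_subset_mul_left (hS _ (by omega))) b1)
      (by rw [de_gs g a1 a3, h0, gs_zero])
    exact b2 b hb e' V' (hs _ (by omega))
  · exact B_mono hVV (hi_van hO (no_c0 H hk) hV j hj z hz.1 hz.2)

end Crest.Agent.N255.Gs

end
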