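import Crest.Agent.N255.Tp.Stm
import Crest.Agent.N222.C.Simp

/-!
# Row 255, block D (helper58): weakly contractible spaces are acyclic
-/

set_option autoImplicit false
open Set Filter Topology

noncomputable section

namespace Crest.Agent.N255.Gs

open Crest.Agent.N255.Tp
open Crest.Agent.N222.C (WC)
open Crest.Agent.R251.Sm (face)

variable {X : Type} [TopologicalSpace X] {n : ℕ}


theorem fc_fc' (σ : Sx (n + 2) X) (i : Fin (n + 3)) (j : Fin (n + 2)) :
    fc (fc σ (i.succAbove j)) (j.predAbove i) = fc (fc σ i) j := by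
  ext r
  exact congrArg σ (N222.C.Si2.face_face i j r)

/-- prescribed faces -/
theorem ext_of (h : WC X) (τ : Fin (n + 2) → Sx n X)
    (hτ : ∀ i j s t, face i s = face j t → τ i s = τ j t) : ∃ σ : Sx (n + 1) X, ∀ i, fc σ i = τ i := by
  obtain ⟨g, hg, hf, -⟩ := N222.C.exists_bdry τ hτ
  obtain ⟨G, hG⟩ := h.ext_simplex hg
  refine ⟨G, fun i => ?_⟩
  ext s
  exact (hG _ ⟨i, N222.C.Si2.face_self i s⟩).trans (hf i s)

theorem ext_zero (h : WC X) (τ : Fin 2 → Sx 0 X) : ∃ σ : Sx 1 X, ∀ i, fc σ i = τ i := by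
  refine ext_of h τ fun i j s t e => ?_
  obtain rfl | hij := eq_or_ne j i
  · rw [N222.C.Si2.face_inj _ e]
  obtain ⟨j, rfl⟩ := Fin.exists_succAbove_eq hij
  have h1 := N222.C.Si2.face_succAbove i s j
  rw [e, N222.C.Si2.face_self] at h1
  have h2 := s.2.2
  rw [Fin.sum_univ_one, Subsingleton.elim 0 j] at h2
  exact absurd (h1.trans h2) zero_ne_one

theorem ext_succ (h : WC X) (τ : Fin (n + 3) → Sx (n + 1) X)
    (hτ : ∀ i j, fc (τ (i.succAbove j)) (j.predAbove i) = fc (τ i) j) :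
    ∃ σ : Sx (n + 2) X, ∀ i, fc σ i = τ i := by
  refine ext_of h τ fun i j s t e => ?_
  obtain rfl | hij := eq_or_ne j i
  · rw [N222.C.Si2.face_inj _ e]
  obtain ⟨j, rfl⟩ := Fin.exists_succAbove_eq hij
  have h1 := N222.C.Si2.face_succAbove i s j
  rw [e, N222.C.Si2.face_self] at h1
  obtain ⟨r, rfl⟩ := N222.C.Si2.exists_face h1.symm
  obtain rfl := N222.C.Si2.face_inj _ ((N222.C.Si2.face_face i j r).trans e)
  exact (DFunLike.congr_fun (hτ i j) r).symm

/-- one level of the cone -/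
structure Cn (c : Sx n X → Sx (n + 1) X) : Prop where
  z : ∀ σ, fc (c σ) 0 = σ
  cp : ∀ (σ : Sx (n + 1) X) (i : Fin (n + 2)) (j : Fin (n + 1)),
    fc (c (fc σ (i.succAbove j))) (j.predAbove i).succ = fc (c (fc σ i)) j.succ

theorem Cn.step (h : WC X) {c : Sx n X → Sx (n + 1) X} (H : Cn c) :
    ∃ c' : Sx (n + 1) X → Sx (n + 2) X, Cn c' ∧ ∀ σ (i : Fin (n + 2)), fc (c' σ) i.succ = c (fc σ i) := by
  have : ∀ σ : Sx (n + 1) X, ∃ s : Sx (n + 2) X, ∀ i,
      fc s i = (Fin.cons σ (fun i => c (fc σ i)) : Fin (n + 3) → Sx (n + 1) X) i := fun σ => by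
    refine ext_succ h _ fun i j => ?_
    refine Fin.cases ?_ (fun i => ?_) i
    · simp [H.z]
    · refine Fin.cases ?_ (fun j => ?_) j
      · simp [H.z]
      · simpa using H.cp σ i j
  choose c' hc using this
  have h1 : ∀ σ (i : Fin (n + 2)), fc (c' σ) i.succ = c (fc σ i) := fun σ i => by simp [hc]
  exact ⟨c', ⟨fun σ => by simp [hc], fun σ i j => by rw [h1, h1, fc_fc']⟩, h1⟩

/-- the cone over a weakly contractible space -/
theorem exists_cone (h : WC X) (p : Sx 0 X) : ∃ c : ∀ n, Sx n X → Sx (n + 1) X,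
    (∀ n σ, fc (c n σ) 0 = σ) ∧ (∀ σ, fc (c 0 σ) 1 = p) ∧
      ∀ n σ (i : Fin (n + 2)), fc (c (n + 1) σ) i.succ = c n (fc σ i) := by
  have h0 : ∀ σ : Sx 0 X, ∃ s : Sx 1 X, ∀ i, fc s i = ![σ, p] i := fun σ => ext_zero h _
  choose c0 hc0 using h0
  have H0 : Cn c0 := ⟨fun σ => by simp [hc0], fun σ i j => by
    rw [Fin.fin_one_eq_zero (j.predAbove i), Fin.fin_one_eq_zero j]; simp [hc0]⟩
  let F : ∀ n, {c : Sx n X → Sx (n + 1) X // Cn c} := fun n =>
    Nat.rec (motive := fun n => {c : Sx n X → Sx (n + 1) X // Cn c}) ⟨c0, H0⟩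
      (fun _ c => ⟨(c.2.step h).choose, (c.2.step h).choose_spec.1⟩) n
  exact ⟨fun n => (F n).1, fun n => (F n).2.z, fun σ => hc0 σ 1,
    fun n => ((F n).2.step h).choose_spec.2⟩

variable (k : Type) [CommRing k]

theorem bd_sg' (σ : Sx (n + 1) X) :
    bd k (sg k σ) = ∑ i : Fin (n + 2), (-1 : k) ^ (i : ℕ) • sg k (fc σ i) := by
  simp [bd]

theorem mem_univ' (c : Ch k n X) : c ∈ (On (univ : Set X)).ch k n :=
  (Finsupp.mem_supported k c).2 fun _ _ => subset_univ _

theorem acy_of_wc (h : WC X) (x : X) : Acy k (univ : Set X) univ := by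
  obtain ⟨c, h0, h1, h2⟩ := exists_cone h (ContinuousMap.const _ x)
  let C : ∀ n, Ch k n X →ₗ[k] Ch k (n + 1) X := fun n => Finsupp.lmapDomain k k (c n)
  have hC : ∀ n σ, C n (sg k σ) = sg k (c n σ) := fun n σ => by simp [C]
  intro n z hz
  refine ⟨C n z, mem_univ' k _, ?_⟩
  cases n with
  | zero =>
    have e : bd k ∘ₗ C 0 = LinearMap.id - (aug k).smulRight (sg k (ContinuousMap.const _ x)) := by
      refine Finsupp.lhom_ext' fun σ => LinearMap.ext_ring ?_
      have := hC 0 σ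
      simp only [LinearMap.comp_apply, Finsupp.lsingle_apply, this, bd_sg']
      simp [aug, ev, h1, h0, sub_eq_add_neg]
    have h3 : aug k z = 0 := hz.2
    simpa [h3] using LinearMap.congr_fun e z
  | succ n =>
    have e : bd k ∘ₗ C (n + 1) = LinearMap.id - C n ∘ₗ bd k := by
      refine Finsupp.lhom_ext' fun σ => LinearMap.ext_ring ?_
      have := hC (n + 1) σ
      simp only [LinearMap.comp_apply, Finsupp.lsingle_apply, this, LinearMap.sub_apply,
        LinearMap.id_apply]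
      rw [bd_sg', Fin.sum_univ_succ, h0]
      change _ = sg k σ - C n (bd k (sg k σ))
      rw [bd_sg', map_sum, sub_eq_add_neg, ← Finset.sum_neg_distrib]
      simp only [h2, map_smul, hC, Fin.val_zero, pow_zero, one_smul, Fin.val_succ, pow_succ,
        mul_neg, mul_one, neg_smul]
    have h3 : bd k z = 0 := hz.2
    simpa [h3] using LinearMap.congr_fun e z

theorem wc_of {X : Type} [TopologicalSpace X] [PathConnectedSpace X]
    (h : ∀ n : ℕ, 1 ≤ n → ∀ x : X, Subsingleton (HomotopyGroup (Fin n) X x)) : WC X := by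
  intro n x
  rcases n with _ | n
  · have : Subsingleton (ZerothHomotopy X) :=
      (pathConnectedSpace_iff_zerothHomotopy.1 inferInstance).2
    exact (HomotopyGroup.pi0EquivZerothHomotopy (x := x)).subsingleton
  · exact h _ (by omega) x

theorem wcS_holds : WcS := fun k _ X _ _ h =>
  acy_of_wc k (wc_of h) (Classical.arbitrary X)

end Crest.Agent.N255.Gs

end
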