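import Crest.Agent.N255.Uc.Cov
import Crest.Agent.N255.Wi.All
import Crest.Agent.N255.Gs.Wc
import Crest.Agent.N255.Gs.Cx

-- ▼ part N255/Uc/Sh
section

/-!
# Row 255, block D (helper89): shadows of singular simplices in a `G`-manifold
-/

set_option autoImplicit false
open Set Filter Topology Pointwise

noncomputable section

namespace Crest.Agent.N255.Uc

open Crest.Agent.N255.Tp

variable {G T : Type} [Group G] [TopologicalSpace T] [MulAction G T] {d n : ℕ}

/-- the shadow of a set: all `g` such that it meets `g • K` -/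
def shs (G : Type) {T : Type} [Group G] [MulAction G T] (K A : Set T) : Set G :=
  {g | ∃ x ∈ A, g⁻¹ • x ∈ K}

/-- the shadow of a simplex -/
def sh (G : Type) {T : Type} [Group G] [TopologicalSpace T] [MulAction G T] (K : Set T) {n : ℕ}
    (σ : Sx n T) : Set G := shs G K (range σ)

omit [TopologicalSpace T] in
theorem shs_mono {K A B : Set T} (h : A ⊆ B) : shs G K A ⊆ shs G K B :=
  fun _ ⟨x, hx, h'⟩ => ⟨x, h hx, h'⟩

theorem mem_sh {K : Set T} {σ : Sx n T} {g : G} : g ∈ sh G K σ ↔ ∃ t, g⁻¹ • σ t ∈ K :=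
  ⟨fun ⟨_, ⟨t, rfl⟩, h⟩ => ⟨t, h⟩, fun ⟨t, h⟩ => ⟨_, ⟨t, rfl⟩, h⟩⟩

theorem sh_sub {K : Set T} {m : ℕ} (σ : Sx n T) (v : Fin (m + 1) → Fin (n + 1)) :
    sh G K (sub σ v) ⊆ sh G K σ := shs_mono (range_sub σ v)

theorem sh_fc {K : Set T} (σ : Sx (n + 1) T) (i : Fin (n + 2)) : sh G K (fc σ i) ⊆ sh G K σ :=
  sh_sub σ _

theorem sh_nonempty {K : Set T} (hc : ∀ x, ∃ g : G, g⁻¹ • x ∈ K) (σ : Sx n T) :
    (sh G K σ).Nonempty := by
  obtain ⟨g, hg⟩ := hc (σ (stdSimplex.vertex 0))
  exact ⟨g, mem_sh.2 ⟨_, hg⟩⟩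


theorem mem_sh_smul [ContinuousConstSMul G T] {K : Set T} (g h : G) (σ : Sx n T) :
    g * h ∈ sh G K (g • σ) ↔ h ∈ sh G K σ := by
  simp only [mem_sh, ContinuousMap.smul_apply, smul_smul, mul_inv_rev, inv_mul_cancel_right]

theorem sh_smul [ContinuousConstSMul G T] {K : Set T} (g : G) (σ : Sx n T) :
    sh G K (g • σ) = (g * ·) '' sh G K σ := by
  ext h
  constructor
  · intro hh
    refine ⟨g⁻¹ * h, (mem_sh_smul g _ σ).1 ?_, mul_inv_cancel_left g h⟩
    rwa [mul_inv_cancel_left]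
  · rintro ⟨h, hh, rfl⟩
    exact (mem_sh_smul g h σ).2 hh




/-- simplices with shadow in `S` -/
def Wd (K : Set T) (S : Set G) : Sb T :=
  ⟨fun _ => {σ | sh G K σ ⊆ S}, fun _ σ i h => (sh_fc σ i).trans h⟩


theorem Wd_mono {K : Set T} {S S' : Set G} (h : S ⊆ S') : (Wd K S).Le (Wd K S') :=
  fun _ _ hσ => Subset.trans hσ h

/-- the open (for `K` compact) set of points with shadow in `S` -/
def cor (K : Set T) (S : Set G) : Set T := {x | ∀ g : G, g⁻¹ • x ∈ K → g ∈ S}

theorem Wd_eq (K : Set T) (S : Set G) : Wd K S = On (cor K S) := by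
  unfold Wd On
  congr 1
  funext n
  ext σ
  exact ⟨fun h _ ⟨t, e⟩ g hg => h ⟨_, ⟨t, e⟩, hg⟩, fun h g ⟨x, hx, hg⟩ => h hx g hg⟩

omit [TopologicalSpace T] in
theorem cor_sub_sat {K : Set T} (hc : ∀ x, ∃ g : G, g⁻¹ • x ∈ K) (S : Set G) :
    cor K S ⊆ sat S K := fun x hx => by
  obtain ⟨g, hg⟩ := hc x
  exact ⟨g, hx g hg, hg⟩

omit [TopologicalSpace T] in
theorem sub_cor (K A : Set T) : A ⊆ cor K (shs G K A) := fun x hx _ hg => ⟨x, hx, hg⟩



omit [TopologicalSpace T] in
/-- `sat S K ⊆ cor K (S * N)` with `N` the set of neighbours of `K` -/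
theorem sat_sub_cor (K L : Set T) (S : Set G) : sat S L ⊆ cor K (S * shs G K L) := by
  rintro x ⟨g, hg, hx⟩ h hh
  exact ⟨g, hg, g⁻¹ * h, ⟨_, hx, by simpa [smul_smul] using hh⟩, mul_inv_cancel_left g h⟩

theorem Wd_le_On {K : Set T} (hc : ∀ x, ∃ g : G, g⁻¹ • x ∈ K) (S : Set G) :
    (Wd K S).Le (On (sat S K)) := by
  rw [Wd_eq]; exact On_le (cor_sub_sat hc S)

theorem On_le_Wd (K A : Set T) : (On A).Le (Wd K (shs G K A)) := by
  rw [Wd_eq]; exact On_le (sub_cor K A)

namespace GM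

variable (h : GM d G T) {K : Set T}
include h

theorem shs_finite (hK : IsCompact K) {A : Set T} (hA : IsCompact A) : (shs G K A).Finite :=
  h.fin_meet hA hK

theorem sh_finite (hK : IsCompact K) (σ : Sx n T) : (sh G K σ).Finite :=
  h.shs_finite hK (isCompact_range σ.continuous)

theorem free_sx (g : G) (σ : Sx n T) (e : haveI := h.cont; g • σ = σ) : g = 1 :=
  h.free g (σ (stdSimplex.vertex 0)) (congrArg (fun τ : Sx n T => τ (stdSimplex.vertex 0)) e)

theorem acy' (k : Type) [CommRing k] : Acy k (univ : Set T) univ := h.acy Gs.wcS_holds k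



/-- uniform acyclicity in terms of shadows -/
theorem uac (hK : IsCompact K) (hc : ∀ x, ∃ g : G, g⁻¹ • x ∈ K) (k : Type) [Field k] (n : ℕ)
    {S : Set G} (hS : S.Finite) : ∃ S' : Set G, S'.Finite ∧ S ⊆ S' ∧
      (Wd K S).ch k n ⊓ rcyc k T n ≤ (Wd K S').B k n := by
  have := h.cont
  obtain ⟨_⟩ := h.chart
  have := h.t2
  obtain ⟨L, hL, h1⟩ := Wi.unifS_holds k d T (h.acy' k) _ (isCompact_sat hS hK) n
  refine ⟨S ∪ shs G K L, hS.union (h.shs_finite hK hL), subset_union_left, ?_⟩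
  exact (inf_le_inf_right _ (Sb.ch_mono (Wd_le_On hc S))).trans
    (h1.trans (Sb.B_mono ((On_le_Wd K L).trans (Wd_mono subset_union_right))))

end GM

end Crest.Agent.N255.Uc

end
end

-- ▼ part N255/Gs/Sing

/-!
# Row 255, block D (helper89): the singular complex of a `G`-manifold as a complex with shadows
-/

set_option autoImplicit false
open Set Filter Topology
open scoped Pointwise

noncomputable section

namespace Crest.Agent.N255.Gs

open Crest.Agent.N255.Tp Crest.Agent.N255.Uc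

variable {G T : Type} [Group G] [TopologicalSpace T] [MulAction G T] [ContinuousConstSMul G T]
  {d n : ℕ}

/-- a `G`-manifold with a chosen compact fundamental set -/
structure FD (d : ℕ) (G : Type) {T : Type} [Group G] [TopologicalSpace T] [MulAction G T]
    (K : Set T) : Prop where
  gm : GM d G T
  cpt : IsCompact K
  cov : ∀ x, ∃ g : G, g⁻¹ • x ∈ interior K

omit [ContinuousConstSMul G T] in
theorem exists_FD (h : GM d G T) : ∃ K : Set T, FD d G K := by
  obtain ⟨K, h1, h2⟩ := h.exists_fd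
  exact ⟨K, h, h1, h2⟩

omit [ContinuousConstSMul G T] in
theorem gm_countable (h : GM d G T) : Countable G := by
  have := h.lc
  have := h.sc
  have := h.pc
  obtain ⟨x⟩ : Nonempty T := inferInstance
  have h1 : (univ : Set G) ⊆ ⋃ j, {g : G | ∃ y ∈ ({x} : Set T), g • y ∈ compactCovering T j} := by
    intro g _
    obtain ⟨j, hj⟩ := exists_mem_compactCovering (g • x)
    exact mem_iUnion.2 ⟨j, x, rfl, hj⟩
  exact countable_univ_iff.1 ((countable_iUnion fun j =>
    (h.prp _ _ isCompact_singleton (isCompact_compactCovering T j)).countable).mono h1)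

theorem tr_eq_push {k : Type} [CommRing k] (g : G) (c : Ch k n T) :
    tr k g c = push k (Uc.tr g) c := rfl

namespace FD

variable {K : Set T} (h : FD d G K)
include h

omit [ContinuousConstSMul G T] in
theorem cov' (x : T) : ∃ g : G, g⁻¹ • x ∈ K := (h.cov x).imp fun _ hg => interior_subset hg

/-- shadows of singular simplices -/
def shS (n : ℕ) : Sh G (Sx n T) where
  sh := sh G K
  fin := h.gm.sh_finite h.cpt
  ne := sh_nonempty h.cov'
  smul g σ := sh_smul g σ
  free g σ e := h.gm.free_sx g σ e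


theorem W_eq (k : Type) [CommRing k] (S : Set G) : (h.shS n).W k S = (Wd K S).ch k n := rfl

theorem W_eq' (k : Type) [CommRing k] (S : Set G) : (h.shS n).W k S = (On (cor K S)).ch k n := by
  rw [W_eq, Wd_eq]

theorem W_le_On (k : Type) [CommRing k] (S : Set G) : (h.shS n).W k S ≤ (On (sat S K)).ch k n :=
  Sb.ch_mono (Wd_le_On h.cov' S)


/-- the singular complex -/
def sing (k : Type) [Field k] : Cx k G (fun n => Sx n T) where
  P := h.shS
  d _ := bd k
  eqv _ g c := bd_push (Uc.tr g) c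
  ctl n S hS := ⟨S, hS, fun _ hc => Sb.bd_mem (P := Wd K S) hc⟩
  dd _ c := bd_bd c
  aud c := aug_bd c
  uf0 S hS := by
    obtain ⟨S', h1, -, h2⟩ := h.gm.uac h.cpt h.cov' k 0 hS
    exact ⟨S', h1, fun c hc h0 => h2 ⟨hc, h0⟩⟩
  uf n S hS := by
    obtain ⟨S', h1, -, h2⟩ := h.gm.uac h.cpt h.cov' k (n + 1) hS
    exact ⟨S', h1, fun c hc h0 => h2 ⟨hc, h0⟩⟩
  ne := by
    have := h.gm.pc
    obtain ⟨x⟩ : Nonempty T := inferInstance
    exact ⟨ContinuousMap.const _ x⟩


theorem sing_P (k : Type) [Field k] (n : ℕ) : (h.sing k).P n = h.shS n := rfl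

/-- the invariant open cover by the translates of the interior of `K` -/
def cvr (G : Type) {T : Type} [Group G] [TopologicalSpace T] [MulAction G T] (K : Set T) :
    Set (Set T) := range fun g : G => sat {g} (interior K)

omit h in
theorem cvr_open : ∀ U ∈ cvr G K, IsOpen U := by
  rintro _ ⟨g, rfl⟩; exact isOpen_sat _ isOpen_interior

omit [ContinuousConstSMul G T] in
theorem cvr_cover (A : Set T) : A ⊆ ⋃₀ cvr G K := fun x _ => by
  obtain ⟨g, hg⟩ := h.cov x
  exact ⟨_, ⟨g, rfl⟩, g, rfl, hg⟩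

omit [ContinuousConstSMul G T] in
theorem nb_finite : (shs G K K).Finite := h.gm.shs_finite h.cpt h.cpt

omit [ContinuousConstSMul G T] h in
/-- small simplices have size `shs G K K` -/
theorem sh_small {σ : Sx n T} (hσ : σ ∈ (Sm (cvr G K)).S n) :
    ∃ g : G, sh G K σ ⊆ g • shs G K K := by
  obtain ⟨_, ⟨g, rfl⟩, hσ⟩ := hσ
  refine ⟨g, fun a ⟨x, hx, ha⟩ => ?_⟩
  obtain ⟨g', e, h1⟩ := hσ hx
  rw [show g' = g from e] at h1
  exact ⟨g⁻¹ * a, ⟨_, interior_subset h1, by simpa [smul_smul] using ha⟩, mul_inv_cancel_left g a⟩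

/-- small chains in `A` are chains of bounded size over the shadow of `A` -/
theorem small_le_Ws (k : Type) [CommRing k] (A : Set T) :
    ((On A).inf (Sm (cvr G K))).ch k n ≤ (h.shS n).Ws k (shs G K K) (shs G K A) :=
  Finsupp.supported_mono fun σ hσ => by
    obtain ⟨g, hg⟩ := sh_nonempty (G := G) h.cov' σ
    exact ⟨⟨g, hg, shs_mono hσ.1 hg⟩, sh_small hσ.2⟩


end FD

end Crest.Agent.N255.Gs

end
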